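import Vale.Agent.P231.Final.Defs

/-! P231: the definition of a Blaschke manifold. -/

set_option maxSynthPendingDepth 3

open Bundle Manifold Set
open scoped ContDiff Manifold NNReal ENNReal

namespace Vale.Agent.P231.H257

noncomputable section

variable {E : Type*} [NormedAddCommGroup E] [NormedSpace ℝ E]
  {M : Type*} [MetricSpace M] [ChartedSpace E M]
  [RiemannianBundle (fun x : M => TangentSpace 𝓘(ℝ, E) x)]

/-- `exp_x` restricted to the open ball of radius `r` of `T_x M` is a diffeomorphism onto its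
image. -/
def DiffeoOnBall (e : ∀ x : M, TangentSpace 𝓘(ℝ, E) x → M) (x : M) (r : ℝ) : Prop :=
  ∃ φ : OpenPartialHomeomorph (TangentSpace 𝓘(ℝ, E) x) M,
    φ.source = Metric.ball (0 : TangentSpace 𝓘(ℝ, E) x) r ∧ EqOn φ (e x) φ.source ∧
    ContMDiffOn 𝓘(ℝ, TangentSpace 𝓘(ℝ, E) x) 𝓘(ℝ, E) ∞ φ φ.source ∧
    ContMDiffOn 𝓘(ℝ, E) 𝓘(ℝ, TangentSpace 𝓘(ℝ, E) x) ∞ φ.symm φ.target

/-- The injectivity radius `inj_x M` at `x`: the supremum of the radii `r` such that `exp_x`
restricted to the open ball of radius `r` is a diffeomorphism onto its image. -/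
def injAt (e : ∀ x : M, TangentSpace 𝓘(ℝ, E) x → M) (x : M) : ℝ≥0∞ :=
  ⨆ (r : ℝ≥0) (_ : DiffeoOnBall e x r), (r : ℝ≥0∞)

/-- `M` is a Blaschke manifold: `inj M = diam M`, where `inj M` is the infimum of all `inj_x M`. -/
def IsBlaschke (e : ∀ x : M, TangentSpace 𝓘(ℝ, E) x → M) : Prop :=
  ⨅ x : M, injAt e x = Metric.ediam (univ : Set M)

end

end Vale.Agent.P231.H257
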