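import Vale.Agent.P231.H703.MultLE
import Vale.Agent.P231.H257.Defs

/-! P231: the Blaschke property in terms of the distance function alone: every two points lie on a
minimal geodesic of length `D`. -/

set_option maxSynthPendingDepth 3
set_option linter.unusedSectionVars false

open Bundle Manifold Set Filter Module
open scoped ContDiff Manifold Topology NNReal ENNReal

namespace Vale.Agent.P231.H257

noncomputable section

open Vale.Agent.P234 Vale.Agent.P231

variable {E : Type*} [NormedAddCommGroup E] [NormedSpace ℝ E]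
  {M : Type*} [MetricSpace M] [ChartedSpace E M]
  [RiemannianBundle (fun x : M => TangentSpace 𝓘(ℝ, E) x)]

/-- Any two different points lie on a minimal geodesic of length `D`. -/
def Prol (M : Type*) [MetricSpace M] (D : ℝ) : Prop :=
  ∀ x y : M, x ≠ y → ∃ z : M, dist x z = D ∧ dist x y + dist y z = dist x z

variable [FiniteDimensional ℝ E] [IsManifold 𝓘(ℝ, E) ∞ M]
  [IsContMDiffRiemannianBundle 𝓘(ℝ, E) ∞ E (fun x : M => TangentSpace 𝓘(ℝ, E) x)]
  [CompactSpace M]
  {e : ∀ x : M, TangentSpace 𝓘(ℝ, E) x → M}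

theorem injGE_of_prol (F : Facts e) {D : ℝ} (h : Prol M D) : InjGE e D := by
  have he := F.isExp
  obtain ⟨ρ, hρ, hmin, hsm⟩ := F.short
  intro x v hv
  rcases eq_or_ne v 0 with rfl | hv0
  · rw [he.map_zero, dist_self, norm_zero]
  have hn : 0 < ‖v‖ := norm_pos_iff.2 hv0
  have hD : 0 < D := lt_of_lt_of_le hn hv
  obtain ⟨ε, hε, hlt⟩ := _root_.exists_between (lt_min hρ hn)
  rw [lt_min_iff] at hlt
  set v' : TangentSpace 𝓘(ℝ, E) x := (ε / ‖v‖) • v with hv'
  have hn' : ‖v'‖ = ε := by
    rw [hv', norm_smul, Real.norm_of_nonneg (by positivity), div_mul_cancel₀ _ hn.ne']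
  have hseg : v' ∈ segMin e x := by
    have h1 := hmin x v' 0 1 (by rw [hn', sub_zero, abs_one, mul_one]; exact hlt.1.le)
    rw [zero_smul, one_smul, he.map_zero, sub_zero, abs_one, mul_one] at h1
    exact h1
  have hdv : dist x (e x v') = ε := by
    rw [← hn']
    exact hseg
  have hne : x ≠ e x v' := by
    intro h1
    rw [← h1, dist_self] at hdv
    exact hε.ne hdv
  obtain ⟨z, hz, hz'⟩ := h x (e x v') hne
  obtain ⟨w, hw, hwz, t, ht0, ht1, htw, htd⟩ := F.between hz'
  have hwn : ‖w‖ = D := by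
    have h1 : dist x (e x w) = ‖w‖ := hw
    rw [← h1, hwz, hz]
  have htε : t * D = ε := by rw [← hwn, ← htd, hdv]
  have ht1' : t < 1 := by
    by_contra hc
    have h1 : t = 1 := le_antisymm ht1 (not_lt.1 hc)
    rw [h1, one_mul] at htε
    linarith only [htε, hlt.2, hv]
  have ht : 0 < t := by
    rcases ht0.lt_or_eq with h4 | h4
    · exact h4
    · rw [← h4, zero_mul] at htε
      exact absurd htε hε.ne
  have h3 : v' = t • w := F.injDomain_unique (smul_mem_injDomain he hw ht0 ht1') hseg htw.symm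
  have h4 : v = (‖v‖ / D) • w := by
    have h5 : v = (‖v‖ / ε) • v' := by
      rw [hv', smul_smul]
      have : ‖v‖ / ε * (ε / ‖v‖) = 1 := by field_simp
      rw [this, one_smul]
    rw [h3, smul_smul] at h5
    have h6 : ‖v‖ / ε * t = ‖v‖ / D := by rw [← htε]; field_simp
    rwa [h6] at h5
  have h5 : (‖v‖ / D) • w ∈ segMin e x :=
    smul_mem_segMin he hw (by positivity) ((div_le_one hD).2 hv)
  rw [← h4] at h5
  exact h5

theorem prol_of_injGE (F : Facts e) {D : ℝ} (hB : InjGE e D) (hdiam : ∀ p q : M, dist p q ≤ D) :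
    Prol M D := by
  intro x y hxy
  obtain ⟨v, hv, hd⟩ := F.hopfRinow x y
  have hn : 0 < ‖v‖ := by rw [← hd]; exact dist_pos.2 hxy
  have hvD : ‖v‖ ≤ D := by rw [← hd]; exact hdiam x y
  have hD : 0 < D := lt_of_lt_of_le hn hvD
  set w : TangentSpace 𝓘(ℝ, E) x := (D / ‖v‖) • v with hw
  have hwn : ‖w‖ = D := by
    rw [hw, norm_smul, Real.norm_of_nonneg (by positivity), div_mul_cancel₀ _ hn.ne']
  have hwm : w ∈ segMin e x := hB x w hwn.le
  have hvw : v = (‖v‖ / D) • w := by
    rw [hw, smul_smul]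
    have : ‖v‖ / D * (D / ‖v‖) = 1 := by field_simp
    rw [this, one_smul]
  have h1 := segMin_dist F.isExp hwm (s := ‖v‖ / D) (t := 1) (by positivity)
    ((div_le_one hD).2 hvD) le_rfl
  rw [← hvw, one_smul, hwn, hv] at h1
  refine ⟨e x w, by rw [hB x w hwn.le, hwn], ?_⟩
  rw [h1, hB x w hwn.le, hwn, hd]
  field_simp
  ring

/-- On a Blaschke manifold `exp_x` is a diffeomorphism on the ball of radius `D`. -/
theorem diffeoOnBall (F : Facts e) {D : ℝ} (hB : InjGE e D) (x : M) : DiffeoOnBall e x D := by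
  have he := F.isExp
  have hmem : ∀ v : TangentSpace 𝓘(ℝ, E) x, v ∈ Metric.ball (0 : TangentSpace 𝓘(ℝ, E) x) D →
      v ∈ injDomain e x := fun v hv => hB.mem_injDomain (by rwa [mem_ball_zero_iff] at hv)
  have hlog : ∀ v : TangentSpace 𝓘(ℝ, E) x, v ∈ Metric.ball (0 : TangentSpace 𝓘(ℝ, E) x) D →
      logMap e x (e x v) = v := fun v hv =>
    logMap_eq he (injDomain_subset_segMin he x (hmem v hv)) (F.smooth_cost x v (hmem v hv))
  have hsurj : ∀ y ∈ Metric.ball x D, ∃ v ∈ Metric.ball (0 : TangentSpace 𝓘(ℝ, E) x) D,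
      e x v = y := by
    intro y hy
    obtain ⟨v, hv, hd⟩ := F.hopfRinow x y
    refine ⟨v, ?_, hv⟩
    rw [mem_ball_zero_iff, ← hd, dist_comm]
    exact hy
  have hsm : ContMDiffOn 𝓘(ℝ, E) 𝓘(ℝ, TangentSpace 𝓘(ℝ, E) x) ∞ (logMap e x)
      (Metric.ball x D) := by
    intro y hy
    obtain ⟨v, hv, rfl⟩ := hsurj y hy
    exact (contMDiffAt_logMap he (F.smooth_cost x v (hmem v hv))).contMDiffWithinAt
  refine ⟨{ toFun := e x
            invFun := logMap e x
            source := Metric.ball 0 D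
            target := Metric.ball x D
            map_source' := ?_
            map_target' := ?_
            left_inv' := fun v hv => hlog v hv
            right_inv' := ?_
            open_source := Metric.isOpen_ball
            open_target := Metric.isOpen_ball
            continuousOn_toFun := (contMDiff_exp_fiber he x).continuous.continuousOn
            continuousOn_invFun := hsm.continuousOn }, rfl, fun v _ => rfl,
    (contMDiff_exp_fiber he x).contMDiffOn, hsm⟩
  · intro v hv
    rw [mem_ball_zero_iff] at hv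
    rw [Metric.mem_ball, dist_comm, hB x v hv.le]
    exact hv
  · intro y hy
    obtain ⟨v, hv, rfl⟩ := hsurj y hy
    rw [hlog v hv]
    exact hv
  · intro y hy
    obtain ⟨v, hv, rfl⟩ := hsurj y hy
    rw [hlog v hv]

theorem injOn_of_diffeo {x : M} {r : ℝ} (h : DiffeoOnBall e x r) :
    InjOn (e x) (Metric.ball (0 : TangentSpace 𝓘(ℝ, E) x) r) := by
  obtain ⟨φ, hs, heq, -, -⟩ := h
  rw [← hs]
  exact (φ.injOn).congr heq

theorem le_of_diffeo (F : Facts e) {D : ℝ} (hD : 0 ≤ D) (hdiam : ∀ p q : M, dist p q ≤ D)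
    (hdim : 0 < finrank ℝ E) {x : M} {r : ℝ} (h : DiffeoOnBall e x r) : r ≤ D := by
  by_contra hlt
  push Not at hlt
  obtain ⟨s, hs1, hs2⟩ := _root_.exists_between hlt
  have : Nontrivial (TangentSpace 𝓘(ℝ, E) x) := (finrank_pos_iff (R := ℝ) (M := E)).1 hdim
  obtain ⟨v, hv⟩ := exists_norm_eq (TangentSpace 𝓘(ℝ, E) x) (hD.trans hs1.le)
  obtain ⟨w, hw, hd⟩ := F.hopfRinow x (e x v)
  have hwD : ‖w‖ ≤ D := by rw [← hd]; exact hdiam _ _
  have h1 : w = v := injOn_of_diffeo h (by rw [mem_ball_zero_iff]; linarith only [hwD, hlt])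
    (by rw [mem_ball_zero_iff, hv]; exact hs2) hw
  rw [h1, hv] at hwD
  linarith only [hwD, hs1]

/-- the literal definition of a Blaschke manifold -/
theorem isBlaschke_iff [Nonempty M] (F : Facts e) {D : ℝ} (hD : 0 < D)
    (hDd : Metric.diam (univ : Set M) = D) (hdiam : ∀ p q : M, dist p q ≤ D)
    (hdim : 0 < finrank ℝ E) : IsBlaschke e ↔ InjGE e D := by
  have hed : Metric.ediam (univ : Set M) = ENNReal.ofReal D := by
    rw [← hDd, Metric.diam, ENNReal.ofReal_toReal]
    exact (isCompact_univ.isBounded).ediam_ne_top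
  have hup : ∀ x : M, injAt e x ≤ ENNReal.ofReal D := by
    intro x
    refine iSup₂_le fun r hr => ?_
    have h1 := le_of_diffeo F hD.le hdiam hdim hr
    rw [← ENNReal.ofReal_coe_nnreal]
    exact ENNReal.ofReal_le_ofReal h1
  constructor
  · intro h
    refine injGE_of_injOn F hD fun x => ?_
    have h1 : ENNReal.ofReal D ≤ injAt e x := by
      rw [← hed, ← h]
      exact iInf_le _ x
    intro v hv w hw hvw
    rw [mem_ball_zero_iff] at hv hw
    have h2 : ENNReal.ofReal (max ‖v‖ ‖w‖) < injAt e x :=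
      lt_of_lt_of_le ((ENNReal.ofReal_lt_ofReal_iff hD).2 (max_lt hv hw)) h1
    obtain ⟨r, hr⟩ := lt_iSup_iff.1 h2
    obtain ⟨hr1, hr2⟩ := lt_iSup_iff.1 hr
    rw [← ENNReal.ofReal_coe_nnreal] at hr2
    have h3 : max ‖v‖ ‖w‖ < r :=
      (ENNReal.ofReal_lt_ofReal_iff_of_nonneg (le_max_of_le_left (norm_nonneg v))).1 hr2
    exact injOn_of_diffeo hr1 (by rw [mem_ball_zero_iff]; exact (le_max_left _ _).trans_lt h3)
      (by rw [mem_ball_zero_iff]; exact (le_max_right _ _).trans_lt h3) hvw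
  · intro hB
    have h1 : ∀ x : M, injAt e x = ENNReal.ofReal D := by
      intro x
      refine le_antisymm (hup x) ?_
      have h2 : DiffeoOnBall e x ((Real.toNNReal D : ℝ≥0) : ℝ) := by
        rw [Real.coe_toNNReal D hD.le]
        exact diffeoOnBall F hB x
      exact le_iSup₂_of_le (f := fun (r : ℝ≥0) (_ : DiffeoOnBall e x r) => (r : ℝ≥0∞))
        (Real.toNNReal D) h2 le_rfl
    unfold IsBlaschke
    rw [hed, iInf_congr h1, iInf_const]

end

end Vale.Agent.P231.H257
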