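import Mathlib.Geometry.Manifold.Instances.Sphere
import Mathlib.Topology.MetricSpace.HausdorffDimension

/-! The Hausdorff dimension of the unit sphere. -/

open Set Module

namespace Vale.Agent.P231.H257

theorem dimH_sphere {P : Type*} [NormedAddCommGroup P] [InnerProductSpace ℝ P]
    [FiniteDimensional ℝ P] {k : ℕ} (h : finrank ℝ P = k + 1) :
    dimH (Metric.sphere (0 : P) 1) = k := by
  have hnt : Nontrivial P := (finrank_pos_iff (R := ℝ)).1 (by omega)
  obtain ⟨v, hv⟩ := exists_norm_eq P zero_le_one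
  have hv0 : v ≠ 0 := by
    intro h0
    rw [h0, norm_zero] at hv
    exact zero_ne_one hv
  have hfr : finrank ℝ (ℝ ∙ v)ᗮ = k := by
    have h1 := Submodule.finrank_add_finrank_orthogonal (ℝ ∙ v)
    rw [finrank_span_singleton hv0, h] at h1
    omega
  apply le_antisymm
  · have hsub : Metric.sphere (0 : P) 1 ⊆
        {v} ∪ range (stereoInvFunAux v ∘ ((↑) : (ℝ ∙ v)ᗮ → P)) := by
      intro w hw
      rcases eq_or_ne w v with rfl | hne
      · exact Or.inl rfl
      · refine Or.inr ⟨stereoToFun v w, ?_⟩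
        have h1 := stereo_left_inv hv (x := ⟨w, hw⟩) hne
        exact congrArg Subtype.val h1
    refine (dimH_mono hsub).trans ?_
    rw [dimH_union, dimH_singleton]
    refine max_le (by simp) ?_
    have h2 : ContDiff ℝ 1 (stereoInvFunAux v ∘ ((↑) : (ℝ ∙ v)ᗮ → P)) :=
      contDiff_stereoInvFunAux.comp (ℝ ∙ v)ᗮ.subtypeL.contDiff
    have h3 := h2.dimH_range_le
    rw [hfr] at h3
    exact h3
  · have h1 : dimH (Metric.ball (0 : (ℝ ∙ v)ᗮ) 1) = k := by
      rw [Real.dimH_of_mem_nhds (Metric.ball_mem_nhds 0 one_pos), hfr]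
    rw [← h1]
    have hL : LipschitzWith 1 ((ℝ ∙ v)ᗮ.orthogonalProjectionOnto : P → (ℝ ∙ v)ᗮ) :=
      LipschitzWith.of_dist_le_mul fun a b => by
        rw [dist_eq_norm, dist_eq_norm, ← map_sub, NNReal.coe_one, one_mul]
        exact (ℝ ∙ v)ᗮ.norm_orthogonalProjectionOnto_apply_le _
    refine le_trans (dimH_mono ?_) (hL.dimH_image_le (Metric.sphere (0 : P) 1))
    intro b hb
    rw [mem_ball_zero_iff] at hb
    have hbv : inner ℝ (b : P) v = (0 : ℝ) := by
      rw [real_inner_comm]
      exact Submodule.mem_orthogonal_singleton_iff_inner_right.1 b.2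
    refine ⟨(b : P) + √(1 - ‖b‖ ^ 2) • v, ?_, ?_⟩
    · rw [mem_sphere_zero_iff_norm]
      have h2 : ‖(b : P) + √(1 - ‖b‖ ^ 2) • v‖ ^ 2 = 1 := by
        rw [norm_add_sq_real, inner_smul_right, hbv, norm_smul, hv, mul_one, mul_zero, mul_zero,
          add_zero, Real.norm_eq_abs, sq_abs, Real.sq_sqrt (by
            nlinarith only [hb, norm_nonneg b]), Submodule.coe_norm]
        ring
      nlinarith only [h2, norm_nonneg ((b : P) + √(1 - ‖b‖ ^ 2) • v)]
    · rw [map_add, map_smul, Submodule.orthogonalProjectionOnto_mem_subspace_eq_self]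
      have h3 : (ℝ ∙ v)ᗮ.orthogonalProjectionOnto v = 0 :=
        Submodule.orthogonalProjectionOnto_orthogonal_apply_eq_zero
          (Submodule.mem_span_singleton_self v)
      rw [h3, smul_zero, add_zero]

end Vale.Agent.P231.H257
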