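import Vale.Agent.P231.H257.Ep
import Vale.Agent.P231.H257.Sph

/-! P231: the set of the midpoints of two points at distance `D` is a sphere of the dimension of the
multiplicity of the cut points. -/

set_option maxSynthPendingDepth 3
set_option linter.unusedSectionVars false

open Bundle Manifold Set Filter Module
open scoped ContDiff Manifold Topology NNReal ENNReal

namespace Vale.Agent.P231.H257

noncomputable section

open Vale.Agent.P234 Vale.Agent.P231 Vale.Agent.P231.H703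

variable {E : Type*} [NormedAddCommGroup E] [NormedSpace ℝ E]
  {M : Type*} [MetricSpace M] [ChartedSpace E M]
  [RiemannianBundle (fun x : M => TangentSpace 𝓘(ℝ, E) x)]
  [FiniteDimensional ℝ E] [IsManifold 𝓘(ℝ, E) ∞ M]
  [IsContMDiffRiemannianBundle 𝓘(ℝ, E) ∞ E (fun x : M => TangentSpace 𝓘(ℝ, E) x)]
  [CompactSpace M]
  {e : ∀ x : M, TangentSpace 𝓘(ℝ, E) x → M}

theorem almost_iso (F : Facts e) (y : M) : ∃ δ > 0, ∀ v w : TangentSpace 𝓘(ℝ, E) y,
    ‖v‖ < δ → ‖w‖ < δ → ‖v - w‖ ≤ 2 * dist (e y v) (e y w) ∧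
      dist (e y v) (e y w) ≤ 2 * ‖v - w‖ := by
  obtain ⟨δ, hδ, h⟩ := exp_almost_isometry F y (ε := 1 / 2) (by norm_num)
  refine ⟨δ, hδ, fun v w hv hw => ?_⟩
  have h1 := h v w hv hw
  have h2 : (1 - 1 / 2) * ‖v - w‖ ≤ dist (e y v) (e y w) := h1.1
  have h3 : dist (e y v) (e y w) ≤ (1 + 1 / 2) * ‖v - w‖ := h1.2
  exact ⟨by linarith only [h2], by linarith only [h3, norm_nonneg (v - w)]⟩

/-- the exponential map is locally Lipschitz -/
theorem exp_lip (F : Facts e) (x : M) (u₀ : TangentSpace 𝓘(ℝ, E) x) :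
    ∃ C : ℝ≥0, ∃ t ∈ 𝓝 u₀, LipschitzOnWith C (e x) t := by
  have he := F.isExp
  obtain ⟨δ, hδ, h⟩ := almost_iso F (e x u₀)
  have hs : SmoothAt E (e x u₀) (e x u₀) := area_smoothAt_diag F (e x u₀)
  have hc : ContDiffAt ℝ ∞ (fun u : TangentSpace 𝓘(ℝ, E) x => logMap e (e x u₀) (e x u)) u₀ :=
    ((contMDiffAt_logMap he hs).comp u₀ (contMDiff_exp_fiber he x).contMDiffAt).contDiffAt
  obtain ⟨K, t, ht, hK⟩ := (hc.of_le (m := 1) (by norm_cast)).exists_lipschitzOnWith
  have hcont : Continuous (e x) := (contMDiff_exp_fiber he x).continuous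
  have h1 := hcont.continuousAt.eventually (eventually_logMap he F.hopfRinow hs)
  have h2 : ∀ᶠ u in 𝓝 u₀, dist (e x u₀) (e x u) < δ := by
    have h3 : Tendsto (fun u => dist (e x u₀) (e x u)) (𝓝 u₀) (𝓝 (dist (e x u₀) (e x u₀))) :=
      (continuous_const.dist hcont).continuousAt
    rw [dist_self] at h3
    exact h3.eventually (gt_mem_nhds hδ)
  refine ⟨2 * K, t ∩ {u | (logMap e (e x u₀) (e x u) ∈ segMin e (e x u₀) ∧
    e (e x u₀) (logMap e (e x u₀) (e x u)) = e x u) ∧ dist (e x u₀) (e x u) < δ},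
    inter_mem ht (h1.and h2), ?_⟩
  refine LipschitzOnWith.of_dist_le_mul ?_
  rintro u ⟨hut, ⟨hu1, hu2⟩, hu3⟩ w ⟨hwt, ⟨hw1, hw2⟩, hw3⟩
  have hnu : ‖logMap e (e x u₀) (e x u)‖ < δ := by
    have h4 : dist (e x u₀) (e (e x u₀) (logMap e (e x u₀) (e x u))) =
      ‖logMap e (e x u₀) (e x u)‖ := hu1
    rw [← h4, hu2]
    exact hu3
  have hnw : ‖logMap e (e x u₀) (e x w)‖ < δ := by
    have h4 : dist (e x u₀) (e (e x u₀) (logMap e (e x u₀) (e x w))) =
      ‖logMap e (e x u₀) (e x w)‖ := hw1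
    rw [← h4, hw2]
    exact hw3
  have h5 := (h _ _ hnu hnw).2
  rw [hu2, hw2] at h5
  have h6 := hK.dist_le_mul u hut w hwt
  rw [dist_eq_norm (logMap e (e x u₀) (e x u))] at h6
  rw [NNReal.coe_mul, NNReal.coe_ofNat]
  linarith only [h5, h6]

/-- smooth maps are locally Lipschitz -/
theorem smooth_lip (F : Facts e) {V : Type*} [NormedAddCommGroup V] [NormedSpace ℝ V] {g : M → V}
    {y : M} (hg : ContMDiffAt 𝓘(ℝ, E) 𝓘(ℝ, V) ∞ g y) :
    ∃ C : ℝ≥0, ∃ t ∈ 𝓝 y, LipschitzOnWith C g t := by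
  have he := F.isExp
  obtain ⟨δ, hδ, h⟩ := almost_iso F y
  have hg' : ContMDiffAt 𝓘(ℝ, E) 𝓘(ℝ, V) ∞ g (e y 0) := by rw [he.map_zero]; exact hg
  have hc : ContDiffAt ℝ ∞ (fun u : TangentSpace 𝓘(ℝ, E) y => g (e y u)) 0 :=
    (hg'.comp 0 (contMDiff_exp_fiber he y).contMDiffAt).contDiffAt
  obtain ⟨K, t, ht, hK⟩ := (hc.of_le (m := 1) (by norm_cast)).exists_lipschitzOnWith
  obtain ⟨r, hr, hrt⟩ := Metric.mem_nhds_iff.1 ht
  refine ⟨2 * K, Metric.ball y (min δ r), Metric.ball_mem_nhds _ (lt_min hδ hr), ?_⟩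
  refine LipschitzOnWith.of_dist_le_mul ?_
  intro z hz z' hz'
  rw [Metric.mem_ball, lt_min_iff] at hz hz'
  obtain ⟨a, rfl, ha⟩ := F.hopfRinow y z
  obtain ⟨b, rfl, hb⟩ := F.hopfRinow y z'
  rw [dist_comm, ha] at hz
  rw [dist_comm, hb] at hz'
  have h1 := (h a b hz.1 hz'.1).1
  have h2 := hK.dist_le_mul a (hrt (by rw [mem_ball_zero_iff]; exact hz.2)) b
    (hrt (by rw [mem_ball_zero_iff]; exact hz'.2))
  rw [dist_eq_norm a b] at h2
  rw [NNReal.coe_mul, NNReal.coe_ofNat]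
  have h3 : (K : ℝ) * ‖a - b‖ ≤ K * (2 * dist (e y a) (e y b)) :=
    mul_le_mul_of_nonneg_left h1 K.2
  linarith only [h2, h3]

variable [ConnectedSpace M] [IsRiemannianManifold 𝓘(ℝ, E) M]

/-- The midpoints of `x` and `y`. -/
def Mid (x y : M) (D : ℝ) : Set M := {m | dist x m = D / 2 ∧ dist m y = D / 2}

theorem mid_eq (F : Facts e) {D : ℝ} (hD : 0 < D) (hB : InjGE e D) {x y : M}
    (hxy : dist x y = D) :
    Mid x y D = (fun u : TangentSpace 𝓘(ℝ, E) x => e x ((D / 2) • u)) '' Lk e D y x := by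
  have he := F.isExp
  ext m
  constructor
  · rintro ⟨h1, h2⟩
    obtain ⟨w, hw, hwy, t, ht0, ht1, htm, htd⟩ := F.between (x := x) (q := m) (y := y)
      (by rw [h1, h2, hxy]; ring)
    have hwn : ‖w‖ = D := by
      have h3 : dist x (e x w) = ‖w‖ := hw
      rw [← h3, hwy, hxy]
    have ht : t = 1 / 2 := by
      rw [h1, hwn] at htd
      field_simp at htd ⊢
      linarith only [htd]
    refine ⟨D⁻¹ • w, ⟨?_, ?_⟩, ?_⟩
    · rw [norm_smul, hwn, norm_inv, Real.norm_of_nonneg hD.le, inv_mul_cancel₀ hD.ne']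
    · rw [smul_smul, mul_inv_cancel₀ hD.ne', one_smul, hwy]
    · have h4 : D / 2 * D⁻¹ = t := by rw [ht]; field_simp
      simp only [smul_smul, h4]
      exact htm
  · rintro ⟨u, ⟨hu, huy⟩, rfl⟩
    have hDu : ‖D • u‖ = D := by rw [norm_smul, hu, mul_one, Real.norm_of_nonneg hD.le]
    have hm : D • u ∈ segMin e x := hB x (D • u) hDu.le
    have h1 := segMin_dist he hm (s := 0) (t := 1 / 2) le_rfl (by norm_num) (by norm_num)
    have h2 := segMin_dist he hm (s := 1 / 2) (t := 1) (by norm_num) (by norm_num) le_rfl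
    have h3 : (1 / 2 : ℝ) • D • u = (D / 2) • u := by rw [smul_smul]; congr 1; ring
    rw [zero_smul, he.map_zero, h3, hDu] at h1
    rw [one_smul, h3, hDu, huy] at h2
    exact ⟨by rw [h1]; ring, by rw [h2]; ring⟩

theorem dimH_Lk (F : Facts e) {D : ℝ} (hD : 0 < D) (hB : InjGE e D)
    (hdiam : ∀ p q : M, dist p q ≤ D) {x y : M} (hxy : dist x y = D) {k : ℕ}
    (hk : finrank ℝ (Pl e D x y) = k + 1) : dimH (Lk e D x y) = k := by
  rw [← dimH_sphere hk, ← (isometry_subtype_coe (s := (Pl e D x y :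
    Set (TangentSpace 𝓘(ℝ, E) y)))).dimH_image]
  congr 1
  ext u
  rw [mem_Lk_iff F hD hB hdiam hxy]
  constructor
  · rintro ⟨h1, h2⟩
    exact ⟨⟨u, h1⟩, by rw [mem_sphere_zero_iff_norm]; exact h2, rfl⟩
  · rintro ⟨⟨w, hw⟩, h1, rfl⟩
    rw [mem_sphere_zero_iff_norm] at h1
    exact ⟨hw, h1⟩

theorem dimH_mid (F : Facts e) {D : ℝ} (hD : 0 < D) (hB : InjGE e D)
    (hdiam : ∀ p q : M, dist p q ≤ D) {x y : M} (hxy : dist x y = D) {k : ℕ}
    (hk : finrank ℝ (Pl e D y x) = k + 1) : dimH (Mid x y D) = k := by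
  have he := F.isExp
  rw [← dimH_Lk F hD hB hdiam (by rw [dist_comm]; exact hxy) hk, mid_eq F hD hB hxy]
  have hin : ∀ u ∈ Lk e D y x, (D / 2) • u ∈ injDomain e x := fun u hu =>
    hB.mem_injDomain (by
      rw [norm_smul, hu.1, mul_one, Real.norm_of_nonneg (by positivity)]
      linarith only [hD])
  have hlog : ∀ u ∈ Lk e D y x, logMap e x (e x ((D / 2) • u)) = (D / 2) • u := fun u hu =>
    logMap_eq he (injDomain_subset_segMin he x (hin u hu)) (F.smooth_cost x _ (hin u hu))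
  have : ProperSpace (TangentSpace 𝓘(ℝ, E) x) := FiniteDimensional.proper_real _
  apply le_antisymm
  · refine dimH_image_le_of_locally_lipschitzOn fun u _ => ?_
    obtain ⟨C, t, ht, hC⟩ := exp_lip F x ((D / 2) • u)
    have h1 : ContDiff ℝ 1 (fun w : TangentSpace 𝓘(ℝ, E) x => (D / 2) • w) :=
      contDiff_id.const_smul _
    obtain ⟨K, s, hs, hK⟩ := h1.contDiffAt (x := u) |>.exists_lipschitzOnWith
    refine ⟨C * K, s ∩ (fun w => (D / 2) • w) ⁻¹' t, mem_nhdsWithin_of_mem_nhds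
      (inter_mem hs (h1.continuous.continuousAt.preimage_mem_nhds ht)), ?_⟩
    exact hC.comp (hK.mono inter_subset_left) fun w hw => hw.2
  · have himg : Lk e D y x = (fun m => (2 / D) • logMap e x m) ''
        ((fun u : TangentSpace 𝓘(ℝ, E) x => e x ((D / 2) • u)) '' Lk e D y x) := by
      rw [image_image]
      conv_lhs => rw [← image_id (Lk e D y x)]
      refine image_congr fun u hu => ?_
      rw [hlog u hu, smul_smul]
      have : 2 / D * (D / 2) = 1 := by field_simp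
      rw [this, one_smul, id]
    conv_lhs => rw [himg]
    refine dimH_image_le_of_locally_lipschitzOn ?_
    rintro _ ⟨u, hu, rfl⟩
    have h1 : ContMDiffAt 𝓘(ℝ, E) 𝓘(ℝ, TangentSpace 𝓘(ℝ, E) x) ∞
        (fun m => (2 / D) • logMap e x m) (e x ((D / 2) • u)) := by
      have h2 : ContDiff ℝ ∞ (fun w : TangentSpace 𝓘(ℝ, E) x => (2 / D) • w) :=
        contDiff_id.const_smul _
      exact h2.contMDiff.contMDiffAt.comp _
        (contMDiffAt_logMap he (F.smooth_cost x _ (hin u hu)))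
    obtain ⟨C, t, ht, hC⟩ := smooth_lip F h1
    exact ⟨C, t, mem_nhdsWithin_of_mem_nhds ht, hC⟩

/-- **The multiplicity in terms of the distance function**: there is `l` such that the midpoints of
every two points at distance `D` form a set of Hausdorff dimension `l`, and `l` is the multiplicity
of the cut points. -/
theorem exists_dim (F : Facts e) {D : ℝ} (hD : 0 < D) (hB : InjGE e D)
    (hdiam : ∀ p q : M, dist p q ≤ D) (hDd : Metric.diam (univ : Set M) = D)
    {N : ℕ} (hN : finrank ℝ E = N + 1) :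
    ∃ l : ℕ, l ≤ N ∧ (∀ x y : M, dist x y = D → dimH (Mid x y D) = l) ∧
      IsLeast {k | Blaschke.MultLE e k} l := by
  obtain ⟨k, hkN, hk, hkP⟩ := exists_mult F hD hB hdiam hN
  refine ⟨k, hkN, fun x y hxy => dimH_mid F hD hB hdiam hxy (hkP y x (by rwa [dist_comm])), ?_, ?_⟩
  · intro x v hv w hw
    by_contra hcon
    push Not at hcon
    have hv1 : ‖v‖ = D := hv.trans hDd
    set v' : TangentSpace 𝓘(ℝ, E) x := D⁻¹ • v with hv'
    have hv'n : ‖v'‖ = 1 := by
      rw [hv', norm_smul, hv1, Real.norm_eq_abs, abs_of_pos (inv_pos.2 hD),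
        inv_mul_cancel₀ hD.ne']
    have hDv : D • v' = v := by rw [hv', smul_smul, mul_inv_cancel₀ hD.ne', one_smul]
    have h3 : ∀ i, w i ∈ Ker e D x v' := by
      intro i
      rw [mem_Ker, hDv]
      exact (mfderiv_line' F.isExp x v (w i)).symm.trans (hcon i)
    have h4 : LinearIndependent ℝ (fun i => (⟨w i, h3 i⟩ : Ker e D x v')) := by
      refine LinearIndependent.of_comp (Ker e D x v').subtype ?_
      exact hw
    have h5 := h4.fintype_card_le_finrank
    rw [Fintype.card_fin, hk x v' hv'n] at h5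
    omega
  · intro l hl
    obtain ⟨x₀⟩ : Nonempty M := inferInstance
    have hex : ∃ u : E, nm x₀ u = 1 := by
      have : Nontrivial (Eu E) := by
        have : 0 < finrank ℝ (Eu E) := by
          rw [finrank_euclideanSpace, Fintype.card_fin, hN]; omega
        exact (finrank_pos_iff (R := ℝ)).1 this
      obtain ⟨a, ha⟩ := exists_norm_eq (Eu E) zero_le_one
      exact ⟨fr x₀ a, by rw [nm_fr, ha]⟩
    obtain ⟨u, hu⟩ := hex
    have h2 := finrank_le_of_mult F.isExp hl x₀ (D • u : E) (by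
      rw [hDd]
      have := nm_smul (E := E) x₀ u D
      rw [this, hu, mul_one, abs_of_pos hD])
    have h3 : finrank ℝ (Ker e D x₀ (u : TangentSpace 𝓘(ℝ, E) x₀)) = k := hk x₀ u hu
    have h4 : finrank ℝ (Ker e D x₀ (u : TangentSpace 𝓘(ℝ, E) x₀)) =
        finrank ℝ (LinearMap.ker (dEl e x₀ (D • u : E))) := rfl
    omega

end

end Vale.Agent.P231.H257
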